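import Mathlib

/-!
# Derivations of the reals

There is a positive real `s` and a `ℚ`-derivation `D` of `ℝ` with `D s = 1`.

Proof: `s` transcendental; `K = Frac ℚ[X]` embeds in `ℝ` via `X ↦ s`, and maps to the dual numbers
`ℝ[ε]` via `X ↦ s + ε`. As `ℝ / K` is formally smooth (transcendence basis + characteristic zero),
the identity of `ℝ` lifts to a `K`-algebra map `ℝ → ℝ[ε]`; its dual part is the derivation.
-/

open Polynomial TrivSqZeroExt

namespace Vale.Agent.P058h15

/-- Field extensions in characteristic zero are formally smooth. -/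
theorem formallySmooth_of_charZero (K L : Type) [Field K] [Field L] [Algebra K L] [CharZero K] :
    Algebra.FormallySmooth K L := by
  obtain ⟨s, hs⟩ := exists_isTranscendenceBasis K L
  have : Algebra.IsAlgebraic (IntermediateField.adjoin K (Set.range ((↑) : s → L))) L :=
    hs.isAlgebraic_field
  exact Algebra.FormallySmooth.of_algebraicIndependent_of_isSeparable hs.1

/-- There is a positive transcendental real number. -/
theorem exists_pos_transcendental : ∃ s : ℝ, 0 < s ∧ Transcendental ℚ s := by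
  have hc : {x : ℝ | IsAlgebraic ℚ x}.Countable := Algebraic.countable ℚ ℝ
  have hd : Dense ({x : ℝ | IsAlgebraic ℚ x}ᶜ) := hc.dense_compl ℝ
  obtain ⟨s, hs, h0, _⟩ := hd.exists_between (zero_lt_one' ℝ)
  exact ⟨s, h0, hs⟩

/-- Lifting: a ring hom `φ : K → L[ε]` over `K → L` extends to an additive Leibniz map on `L`. -/
theorem exists_map_of_lift (K L : Type) [Field K] [Field L] [Algebra K L] [CharZero K]
    (φ : K →+* TrivSqZeroExt L L) (hφ : ∀ k, (φ k).fst = algebraMap K L k) :
    ∃ ψ : L →+* TrivSqZeroExt L L, (∀ x, (ψ x).fst = x) ∧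
      ∀ k, ψ (algebraMap K L k) = φ k := by
  let instK : Algebra K (TrivSqZeroExt L L) := φ.toAlgebra
  have : Algebra.FormallySmooth K L := formallySmooth_of_charZero K L
  let π : TrivSqZeroExt L L →ₐ[K] L :=
    { toRingHom := (fstHom L L L).toRingHom
      commutes' := fun k => hφ k }
  have hπs : Function.Surjective π := fun x => ⟨inl x, rfl⟩
  have hπn : IsNilpotent (RingHom.ker (π : TrivSqZeroExt L L →+* L)) := by
    refine ⟨2, ?_⟩
    refine (pow_two (RingHom.ker (π : TrivSqZeroExt L L →+* L))).trans ?_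
    rw [Ideal.zero_eq_bot, eq_bot_iff, Ideal.mul_le]
    intro a ha b hb
    have ha' : a.fst = 0 := ha
    have hb' : b.fst = 0 := hb
    have : a * b = 0 := by
      ext <;> simp [ha', hb']
    simp [this]
  let ψ : L →ₐ[K] TrivSqZeroExt L L :=
    Algebra.FormallySmooth.liftOfSurjective (AlgHom.id K L) π hπs hπn
  refine ⟨ψ.toRingHom, fun x => ?_, fun k => ?_⟩
  · exact Algebra.FormallySmooth.liftOfSurjective_apply (AlgHom.id K L) π hπs hπn x
  · exact ψ.commutes k

/-- A transcendental real admits a derivation sending it to `1`. -/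
theorem exists_derivation_eq_one {s : ℝ} (hs : Transcendental ℚ s) :
    ∃ D : Derivation ℚ ℝ ℝ, D s = 1 := by
  classical
  let R0 := ℚ[X]
  let K := FractionRing R0
  let g0 : R0 →+* ℝ := (aeval s : R0 →ₐ[ℚ] ℝ).toRingHom
  have hg0 : Function.Injective g0 := by
    have := (transcendental_iff_injective).1 hs
    exact this
  let ι : K →+* ℝ := IsFractionRing.lift hg0
  let t : TrivSqZeroExt ℝ ℝ := inl s + inr 1
  let g1 : R0 →+* TrivSqZeroExt ℝ ℝ := (aeval t : R0 →ₐ[ℚ] TrivSqZeroExt ℝ ℝ).toRingHom
  have hfst : ∀ p : R0, (g1 p).fst = g0 p := by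
    intro p
    have h := Polynomial.aeval_algHom_apply (fstHom ℚ ℝ ℝ) t p
    simpa [g1, g0, t] using h.symm
  have hu : ∀ y : nonZeroDivisors R0, IsUnit (g1 y) := by
    intro y
    rw [isUnit_iff_isUnit_fst, hfst, isUnit_iff_ne_zero]
    intro h0
    have : (y : R0) = 0 := hg0 (by simpa using h0)
    exact nonZeroDivisors.ne_zero y.2 this
  let φ : K →+* TrivSqZeroExt ℝ ℝ := IsLocalization.lift (M := nonZeroDivisors R0) hu
  have hφ : ∀ k : K, (φ k).fst = ι k := by
    intro k
    have : (fstHom ℝ ℝ ℝ).toRingHom.comp φ = ι := by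
      apply IsLocalization.ringHom_ext (nonZeroDivisors R0)
      apply RingHom.ext
      intro p
      simp [φ, ι, hfst, IsLocalization.lift_eq, IsFractionRing.lift_algebraMap]
    exact congrArg (fun f => f k) this
  let _ : Algebra K ℝ := ι.toAlgebra
  obtain ⟨ψ, hψ1, hψ2⟩ := exists_map_of_lift K ℝ φ hφ
  -- the derivation
  have hmul : ∀ x y : ℝ, (ψ (x * y)).snd = x • (ψ y).snd + y • (ψ x).snd := by
    intro x y
    rw [map_mul, snd_mul, hψ1, hψ1]
    simp [mul_comm]
  have hadd : ∀ x y : ℝ, (ψ (x + y)).snd = (ψ x).snd + (ψ y).snd := by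
    intro x y
    rw [map_add, snd_add]
  let Dadd : ℝ →+ ℝ :=
    { toFun := fun x => (ψ x).snd
      map_zero' := by simp
      map_add' := hadd }
  have hq : ∀ (c : ℚ) (x : ℝ), (ψ ((c : ℝ) * x)).snd = (c : ℝ) * (ψ x).snd := by
    intro c x
    have h1 : ∀ y : ℝ, Dadd ((c : ℝ) • y) = (c : ℝ) • Dadd y := by
      intro y
      have h := map_rat_smul (Dadd) c y
      simpa [Rat.smul_def] using h
    simpa [Dadd] using h1 x
  let Dl : ℝ →ₗ[ℚ] ℝ :=
    { toFun := fun x => (ψ x).snd
      map_add' := hadd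
      map_smul' := by
        intro c x
        simpa [Rat.smul_def] using hq c x }
  refine ⟨Derivation.mk' Dl (fun x y => ?_), ?_⟩
  · simpa [Dl] using hmul x y
  · have hst : ψ s = t := by
      have h : ψ (algebraMap K ℝ (algebraMap R0 K X)) = φ (algebraMap R0 K X) := hψ2 _
      have h2 : algebraMap K ℝ (algebraMap R0 K X) = s := by
        change ι (algebraMap R0 K X) = s
        simp only [ι, IsFractionRing.lift_algebraMap]
        exact aeval_X s
      rw [h2] at h
      rw [h]
      simp only [φ, IsLocalization.lift_eq]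
      exact aeval_X t
    change (ψ s).snd = 1
    rw [hst]
    simp [t]

/-- The statement wanted for the wild colouring: a positive real `s` and a `ℚ`-derivation of `ℝ`
with `D s = 1`. -/
theorem exists_pos_derivation : ∃ s : ℝ, 0 < s ∧ ∃ D : Derivation ℚ ℝ ℝ, D s = 1 := by
  obtain ⟨s, h0, hs⟩ := exists_pos_transcendental
  exact ⟨s, h0, exists_derivation_eq_one hs⟩

end Vale.Agent.P058h15
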